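import Vale.Agent.P216CP.Stm
import Vale.Agent.P216B.Top
import Vale.Agent.P216R.Loc

/-!
# P216SP/Split: the splitting theorem for `sec ≥ 0`
-/

open scoped Manifold ContDiff Topology ENNReal
open Set Filter
open Vale.Agent.P219.RG Vale.Agent.P216R Vale.Agent.P216CP

noncomputable section

set_option maxSynthPendingDepth 3

namespace Vale.Agent.P216SP

/-- a concave function on the line with `f T + f (-T) ≥ 0` is affine -/
theorem affine_of {f : ℝ → ℝ}
    (hc : ∀ a b c, a < b → b < c → (c - b) * f a + (b - a) * f c ≤ (c - a) * f b)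
    (h0 : ∀ T, 0 ≤ f T + f (-T)) (t : ℝ) : f t = f 0 + t * (f 1 - f 0) := by
  have key : ∀ a b c, a < b → b < c → (c - b) * f a + (b - a) * f c = (c - a) * f b := by
    intro a b c hab hbc
    refine le_antisymm (hc a b c hab hbc) (not_lt.1 fun hl => ?_)
    set δ := (c - a) * f b - ((c - b) * f a + (b - a) * f c) with hδ
    have hδ0 : 0 < δ := sub_pos.2 hl
    set K := (c - b) * b * f a - (b - a) * b * f c - ((c - b) * a - (b - a) * c) * f b with hK
    obtain ⟨T, hT⟩ := exists_gt (max (max (-a) c) (K / δ))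
    simp only [max_lt_iff] at hT
    have h1 := mul_le_mul_of_nonneg_left (hc (-T) a b (by linarith [hT.1.1]) hab)
      (sub_pos.2 hbc).le
    have h2 := mul_le_mul_of_nonneg_left (hc b c T hbc hT.1.2) (sub_pos.2 hab).le
    have h3 := mul_nonneg (mul_pos (sub_pos.2 hab) (sub_pos.2 hbc)).le (h0 T)
    have h4 := (div_lt_iff₀ hδ0).1 hT.2
    rw [hK, hδ] at h4
    nlinarith
  rcases lt_trichotomy t 0 with h | rfl | h
  · have := key t 0 1 h one_pos
    linarith
  · simp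
  rcases lt_trichotomy t 1 with h' | rfl | h'
  · have := key 0 t 1 h h'
    linarith
  · simp
  · have := key 0 1 t one_pos h'
    linarith

variable {E : Type} [NormedAddCommGroup E] [NormedSpace ℝ E]

/-- first and second derivative of a function that is affine along a curve -/
theorem chart_core {φ : E → ℝ} {c : ℝ → E} {a : E} {l : ℝ} (hφ : ContDiffAt ℝ ∞ φ (c 0))
    (hc : ∀ᶠ t in 𝓝 (0 : ℝ), DifferentiableAt ℝ c t) (ha : HasDerivAt (deriv c) a 0)
    (h : ∀ᶠ t in 𝓝 (0 : ℝ), φ (c t) = φ (c 0) + t * l) :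
    fderiv ℝ φ (c 0) (deriv c 0) = l ∧
      fderiv ℝ (fderiv ℝ φ) (c 0) (deriv c 0) (deriv c 0) + fderiv ℝ φ (c 0) a = 0 := by
  have h0 := hc.self_of_nhds
  have h1 : ∀ᶠ u in 𝓝 (c 0), DifferentiableAt ℝ φ u :=
    ((hφ.of_le (m := 1) (by simp)).eventually (by simp)).mono fun u hu =>
      hu.differentiableAt one_ne_zero
  have h2 : ∀ᶠ t in 𝓝 (0 : ℝ), fderiv ℝ φ (c t) (deriv c t) = l := by
    filter_upwards [hc, h0.continuousAt.eventually h1, h.eventually_nhds] with t e1 e2 e3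
    have e4 : HasDerivAt (fun s => φ (c 0) + s * l) l t := by
      simpa using ((hasDerivAt_id t).mul_const l).const_add (φ (c 0))
    exact (e2.hasFDerivAt.comp_hasDerivAt t e1.hasDerivAt).unique
      (e4.congr_of_eventuallyEq e3)
  refine ⟨h2.self_of_nhds, ?_⟩
  have h3 : DifferentiableAt ℝ (fderiv ℝ φ) (c 0) :=
    (hφ.fderiv_right (m := 1) (one_add_one_eq_two.trans_le two_le_infty)).differentiableAt
      one_ne_zero
  have h4 := (h3.hasFDerivAt.comp_hasDerivAt 0 h0.hasDerivAt).clm_apply ha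
  exact h4.unique ((hasDerivAt_const (0 : ℝ) l).congr_of_eventuallyEq h2)

variable {M : Type} [TopologicalSpace M] [ChartedSpace E M] {g : Ten E M} {U : Set M}
  {σ ρ γ : ℝ → M} {s : Set ℝ} {t A : ℝ} {p q : M}

theorem geo_c1 (h : IsGeo g U σ s) (hs : IsOpen s) (ht : t ∈ s) :
    ContMDiffAt 𝓘(ℝ, ℝ) 𝓘(ℝ, E) 1 σ t := by
  refine contMDiffAt_of_chart (h.contAt hs ht) (contDiffAt_one_iff.2 ?_)
  refine ⟨fun u => ContinuousLinearMap.toSpanSingleton ℝ (deriv (cc (E := E) σ (σ t)) u),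
    s ∩ σ ⁻¹' (chartAt E (σ t)).source, inter_mem (hs.mem_nhds ht)
      (h.contAt hs ht (chart_source_mem_nhds E (σ t))), fun u hu => ?_, fun u hu => ?_⟩
  · exact ((ContinuousLinearMap.toSpanSingletonCLE (𝕜 := ℝ) (E := E)).continuous.continuousAt.comp
      (h.eqn _ u hu.1 hu.2).2.1.continuousAt).continuousWithinAt
  · exact (h.hasDerivAt_cc hu.1 hu.2).hasFDerivAt

/-- unit speed geodesics are `1`-Lipschitz -/
theorem geo_ed (h : IsGeo g U σ s) (hs : IsOpen s) (ho : s.OrdConnected)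
    (h1 : ∀ t ∈ s, spd g σ t = 1) {a b : ℝ} (ha : a ∈ s) (hb : b ∈ s) :
    ed g U (σ a) (σ b) ≤ ENNReal.ofReal |a - b| := by
  wlog hab : a ≤ b generalizing a b
  · rw [ed_comm, abs_sub_comm]
    exact this hb ha (not_le.1 hab).le
  have hc : Crv E U σ a b := ⟨hab, fun t ht => (geo_c1 h hs (ho.out ha hb ht)).contMDiffWithinAt,
    fun t ht => h.mem t (ho.out ha hb ht)⟩
  refine (ed_le_len hc).trans ?_
  rw [len_eq_const fun t ht => h1 t (ho.out ha hb (Ioo_subset_Icc_self ht)), abs_sub_comm,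
    abs_of_nonneg (sub_nonneg.2 hab)]
  simp

variable [FiniteDimensional ℝ E] [IsManifold 𝓘(ℝ, E) ∞ M]

omit [FiniteDimensional ℝ E] in
/-- the hinge inequality on a complete manifold -/
theorem hinge (hT : TOP0 E) (hg : Met g U) (hH : Hs U) (hC : Cpl g U) (h0 : ∀ y ∈ U, SecGe g y 0)
    (hρ : MinGeo g U ρ A) (h : IsGeo g U σ s) (hs : IsOpen s) (ho : s.OrdConnected)
    (h1 : ∀ t ∈ s, spd g σ t = 1) (hz : (0 : ℝ) ∈ s) (he : ρ 0 = σ 0) (ht : t ∈ s) (h0t : 0 ≤ t) :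
    dd g U (ρ A) (σ t) ^ 2 ≤ A ^ 2 + t ^ 2 - 2 * A * t * g (σ 0) (vel E ρ 0) (vel E σ 0) := by
  have hA := hρ.nonneg
  have e1 := hρ.min A ⟨hA, le_rfl⟩ 0 ⟨le_rfl, hA⟩
  have hU : ρ A ∈ U := (mem_of_ed_ne (g := g) (y := ρ 0) (by rw [e1]; simp)).1
  refine (hT M g U (ρ A) (A + t + 1) σ (s ∩ Ioo (-(t + 1)) (t + 1)) hg hH (hC.cpt hU _)
    (fun y hy => h0 y (bl_subset hy)) (hs.inter isOpen_Ioo) (ho.inter ordConnected_Ioo)
    (h.mono inter_subset_left) (fun u hu => h1 u hu.1) fun u hu => ?_).2 ρ A hρ rfl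
    ⟨hz, by linarith, by linarith⟩ he t ⟨ht, by linarith, by linarith⟩ h0t
  refine (ed_triangle _ (σ 0) _).trans_lt ?_
  rw [← he, e1, he]
  refine (add_le_add le_rfl (geo_ed h hs ho h1 hz hu.1)).trans_lt ?_
  rw [← ENNReal.ofReal_add (abs_nonneg _) (abs_nonneg _), ENNReal.ofReal_lt_ofReal_iff
    (by linarith), sub_zero, abs_of_nonneg hA, zero_sub, abs_neg]
  have := abs_lt.2 hu.2
  linarith

/-- a direction from `p` to `q` and the hinge inequality in exponential coordinates -/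
theorem dir (hR : HR E) (hT : TOP0 E) (hg : Met g U) (hH : Hs U) (hc : IsPreconnected U)
    (hC : Cpl g U) (h0 : ∀ y ∈ U, SecGe g y 0) (hp : p ∈ U) (hq : q ∈ U) :
    ∃ w, g p w w = 1 ∧ dd g U p q • w ∈ Dom g U p ∧ expo g U p (dd g U p q • w) = q ∧
      ∀ v ∈ Dom g U p, dd g U q (expo g U p v) ^ 2 ≤
        dd g U p q ^ 2 + g p v v - 2 * dd g U p q * g p w v := by
  obtain ⟨ρ, hρ, rfl, e2⟩ := hR M g U p q (dd g U p q + 1) hg hH (hC.cpt hp _)
    (mem_bl_iff.2 ⟨hg.ed_ne_top hc subset_rfl hp hq, lt_add_one _⟩)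
  set A := dd g U (ρ 0) q with hA
  obtain ⟨ε, hε, h1, h2⟩ := hρ.geo
  have hG : IsGeo g U ρ (Ioo (-ε) (A + ε)) := ⟨h1, h2⟩
  have hA0 := hρ.nonneg
  have z : (0 : ℝ) ∈ Ioo (-ε) (A + ε) := ⟨by linarith, by linarith⟩
  have e3 := hG.eq_ray hg hH isOpen_Ioo ordConnected_Ioo z (t := A) ⟨by linarith, by linarith⟩
  rw [← hG.vel_eq isOpen_Ioo z, add_zero, e2] at e3
  refine ⟨vel E ρ 0, Real.sqrt_eq_one.1 (hρ.unit 0 ⟨le_rfl, hA0⟩),
    (smul_mem_Dom hg hH).2 e3.1, (expo_smul hg hH e3.1).trans e3.2, fun v hv => ?_⟩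
  rcases eq_or_ne v 0 with rfl | hv0
  · rw [expo_zero hg hH hp, dd_comm]
    simp [hA]
  have hpos := hg.pos _ hp v hv0
  obtain ⟨r, hr, hr2⟩ : ∃ r, 0 < r ∧ r ^ 2 = g (ρ 0) v v :=
    ⟨√(g (ρ 0) v v), Real.sqrt_pos.2 hpos, Real.sq_sqrt hpos.le⟩
  obtain ⟨u, rfl⟩ : ∃ u, v = r • u := ⟨r⁻¹ • v, by rw [smul_inv_smul₀ hr.ne']⟩
  have hu : g (ρ 0) u u = 1 := by
    simp only [map_smul, smul_apply, smul_eq_mul] at hr2
    exact mul_left_cancel₀ (pow_pos hr 2).ne' (by linarith)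
  have hl := (smul_mem_Dom hg hH).1 hv
  have hz := zero_mem_Life hg hp u
  have := hinge hT hg hH hC h0 hρ (isGeo_ray hg hH) isOpen_Life ordConnected_Life
    (fun t ht => by rw [(isGeo_ray hg hH).spd_eq isOpen_Life ht, sp_ray hg hH ht, hu,
      Real.sqrt_one]) hz (ray_zero hg hH).symm hl hr.le
  rw [e2, ← expo_smul hg hH hl, ray_zero hg hH, (isGeo_ray hg hH).vel_eq isOpen_Life hz,
    dv_ray_zero hg hH hp] at this
  rw [← hr2]
  simp only [map_smul, smul_eq_mul]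
  linarith

/-- the distance from a point to the points of a line -/
theorem line_sq (hR : HR E) (hT : TOP0 E) (hg : Met g U) (hH : Hs U) (hc : IsPreconnected U)
    (hC : Cpl g U) (h0 : ∀ y ∈ U, SecGe g y 0)
    (hγ : ∀ s t, ed g U (γ s) (γ t) = ENNReal.ofReal |s - t|) (hp : p ∈ U) (t : ℝ) :
    dd g U p (γ t) ^ 2 = t ^ 2 - 2 * t * ((dd g U p (γ 0) ^ 2 - dd g U p (γ 1) ^ 2 + 1) / 2)
      + dd g U p (γ 0) ^ 2 := by
  have hU : ∀ t, γ t ∈ U := fun t =>
    (mem_of_ed_ne (g := g) (y := γ t) (by rw [hγ]; simp)).1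
  have hd : ∀ s t, dd g U (γ s) (γ t) = |s - t| := fun s t => by
    rw [dd, hγ, ENNReal.toReal_ofReal (abs_nonneg _)]
  have := affine_of (f := fun t => dd g U p (γ t) ^ 2 - t ^ 2) ?_ ?_ t
  · linarith
  · intro a b c hab hbc
    obtain ⟨w, -, -, -, w4⟩ := dir hR hT hg hH hc hC h0 (hU b) hp
    obtain ⟨u, u1, u2, u3, u4⟩ := dir hR hT hg hH hc hC h0 (hU b) (hU a)
    obtain ⟨v, v1, v2, v3, -⟩ := dir hR hT hg hH hc hC h0 (hU b) (hU c)
    have e1 : dd g U (γ b) (γ a) = b - a := by rw [hd, abs_of_pos (sub_pos.2 hab)]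
    have e2 : dd g U (γ b) (γ c) = c - b := by rw [hd, abs_sub_comm, abs_of_pos (sub_pos.2 hbc)]
    have e3 : dd g U (γ a) (γ c) = c - a := by
      rw [hd, abs_sub_comm, abs_of_pos (sub_pos.2 (hab.trans hbc))]
    have h1 := w4 _ u2
    have h2 := w4 _ v2
    have h3 := u4 _ v2
    rw [u3] at h1
    rw [v3] at h2 h3
    simp only [e1, e2, e3, map_smul, smul_apply, smul_eq_mul, u1, v1,
      dd_comm (x := γ b) (y := p)] at h1 h2 h3
    have hm := mul_pos (sub_pos.2 hab) (sub_pos.2 hbc)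
    have h4 : g (γ b) u v ≤ -1 := by
      by_contra hn
      nlinarith [mul_pos hm (sub_pos.2 (not_le.1 hn))]
    have h5 : u + v = 0 := by
      by_contra hn
      have := hg.pos _ (hU b) _ hn
      simp only [map_add, add_apply, u1, v1, hg.symm _ (hU b) v u] at this
      linarith
    have h6 : g (γ b) w u + g (γ b) w v = 0 := by rw [← map_add, h5, map_zero]
    have h7 := mul_le_mul_of_nonneg_left h1 (sub_pos.2 hbc).le
    have h8 := mul_le_mul_of_nonneg_left h2 (sub_pos.2 hab).le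
    have h9 : g (γ b) w v = -g (γ b) w u := by linarith
    rw [h9] at h8
    nlinarith
  · intro T
    have h1 := dd_triangle (g := g) (hg.ed_ne_top hc subset_rfl (hU T) hp)
      (hg.ed_ne_top hc subset_rfl hp (hU (-T)))
    rw [hd, dd_comm (x := γ T), sub_neg_eq_add, ← two_mul, abs_mul, abs_two] at h1
    have h2 := sq_abs T
    nlinarith [abs_nonneg T, sq_nonneg (dd g U p (γ T) - dd g U p (γ (-T))),
      mul_self_le_mul_self (by positivity) h1]

/-- a lower linear support for the Busemann function -/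
theorem low (hR : HR E) (hT : TOP0 E) (hg : Met g U) (hH : Hs U) (hc : IsPreconnected U)
    (hC : Cpl g U) (h0 : ∀ y ∈ U, SecGe g y 0) {b D : M → ℝ} (hU : ∀ t, γ t ∈ U)
    (hF : ∀ x ∈ U, ∀ t, dd g U x (γ t) ^ 2 = t ^ 2 - 2 * t * b x + D x) (hp : p ∈ U) :
    ∃ w, g p w w = 1 ∧ ∀ v ∈ Dom g U p, g p w v ≤ b (expo g U p v) - b p := by
  choose w w1 _ _ w4 using fun n : ℕ => dir hR hT hg hH hc hC h0 hp (hU n)
  obtain ⟨c, c0, c1⟩ := exists_coer (hg.pos p hp)
  have := FiniteDimensional.proper_real E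
  obtain ⟨a, -, φ, hφ, ha⟩ := tendsto_subseq_of_bounded
    (Metric.isBounded_closedBall (x := (0 : E)) (r := √(1 / c))) (x := w) fun n => by
      rw [mem_closedBall_zero_iff]
      refine Real.le_sqrt_of_sq_le ?_
      rw [le_div_iff₀ c0, ← w1 n, mul_comm]
      exact c1 _
  have hl : Tendsto (fun n => g p (w (φ n))) atTop (𝓝 (g p a)) :=
    ((g p).continuous.tendsto a).comp ha
  refine ⟨a, ?_, fun v hv => ?_⟩
  · have h1 : Tendsto (fun n => g p (w (φ n)) (w (φ n))) atTop (𝓝 (g p a a)) :=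
      (isBoundedBilinearMap_apply.continuous.tendsto (g p a, a)).comp (hl.prodMk_nhds ha)
    simp only [w1] at h1
    exact tendsto_nhds_unique h1 tendsto_const_nhds
  have hn : Tendsto (fun n => ((φ n : ℕ) : ℝ)⁻¹) atTop (𝓝 0) :=
    tendsto_inv_atTop_zero.comp (tendsto_natCast_atTop_atTop.comp hφ.tendsto_atTop)
  have h1 : Tendsto (fun n => √(1 - 2 * b p * ((φ n : ℕ) : ℝ)⁻¹ + D p * ((φ n : ℕ) : ℝ)⁻¹ ^ 2) *
      g p (w (φ n)) v) atTop (𝓝 (√(1 - 2 * b p * 0 + D p * 0 ^ 2) * g p a v)) :=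
    (((hn.const_mul _).const_sub _).add ((hn.pow 2).const_mul _)).sqrt.mul
      (((ContinuousLinearMap.apply ℝ ℝ v).continuous.tendsto _).comp hl)
  have h2 := ((hn.const_mul ((D p + g p v v - D (expo g U p v)) / 2))).const_add
    (b (expo g U p v) - b p)
  simp only [mul_zero, sub_zero, ne_eq, OfNat.ofNat_ne_zero, not_false_eq_true, zero_pow,
    add_zero, Real.sqrt_one, one_mul] at h1 h2
  refine le_of_tendsto_of_tendsto h1 h2 ?_
  filter_upwards [hφ.tendsto_atTop.eventually (eventually_gt_atTop 0)] with n hn0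
  have hp0 : (0 : ℝ) < (φ n : ℕ) := by exact_mod_cast hn0
  have e1 := w4 (φ n) v hv
  rw [dd_comm, hF _ (expo_mem hg hH hv), hF p hp] at e1
  have e2 : √(1 - 2 * b p * ((φ n : ℕ) : ℝ)⁻¹ + D p * ((φ n : ℕ) : ℝ)⁻¹ ^ 2) =
      dd g U p (γ (φ n : ℕ)) * ((φ n : ℕ) : ℝ)⁻¹ := by
    rw [← Real.sqrt_sq (mul_nonneg (dd_nonneg (g := g) (U := U) (x := p) (y := γ (φ n : ℕ)))
      (inv_pos.2 hp0).le), mul_pow, hF p hp]
    congr 1
    field_simp
  rw [e2]
  refine le_of_mul_le_mul_left ?_ hp0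
  field_simp
  linarith

/-- the splitting theorem -/
theorem split' (hR : HR E) (hT : TOP0 E) : SPLIT E := by
  intro M _ _ _ g U γ hg hH hc hC h0 hγ
  have hU : ∀ t, γ t ∈ U := fun t =>
    (mem_of_ed_ne (g := g) (y := γ t) (by rw [hγ]; simp)).1
  set b : M → ℝ := fun p => (dd g U p (γ 0) ^ 2 - dd g U p (γ 1) ^ 2 + 1) / 2 with hb
  have hF : ∀ x ∈ U, ∀ t, dd g U x (γ t) ^ 2 = t ^ 2 - 2 * t * b x + dd g U x (γ 0) ^ 2 :=
    fun x hx t => line_sq hR hT hg hH hc hC h0 hγ hx t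
  have key : ∀ p ∈ U, ∃ w, g p w w = 1 ∧ ∀ v ∈ Dom g U p, b (expo g U p v) = b p + g p w v := by
    intro p hp
    obtain ⟨w, w1, w2⟩ := low hR hT hg hH hc hC h0 hU hF hp
    obtain ⟨u, -, u2⟩ := low hR hT hg hH hc hC h0 (γ := fun t => γ (-t)) (b := fun x => -b x)
      (D := fun x => dd g U x (γ 0) ^ 2) (fun t => hU _) (fun x hx t => by rw [hF x hx]; ring) hp
    have h1 : w + u = 0 := by
      by_contra hn
      have h2 : Tendsto (fun t : ℝ => t • (w + u)) (𝓝[>] 0) (𝓝 0) :=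
        ((continuous_id.smul continuous_const).tendsto' 0 0 (by simp)).mono_left nhdsWithin_le_nhds
      obtain ⟨t, h3, h4⟩ := ((h2.eventually ((isOpen_Dom hg hH).mem_nhds
        (zero_mem_Dom hg hH hp))).and self_mem_nhdsWithin).exists
      have h5 := mul_pos (show 0 < t from h4) (hg.pos p hp _ hn)
      have h6 := w2 _ h3
      have h7 := u2 _ h3
      rw [map_smul, smul_eq_mul] at h6 h7
      rw [map_add (g p), add_apply] at h5
      linarith
    refine ⟨w, w1, fun v hv => ?_⟩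
    have h2 := u2 v hv
    rw [eq_neg_of_add_eq_zero_right h1, map_neg, neg_apply] at h2
    linarith [w2 v hv]
  have hsm : ∀ p ∈ U, ContMDiffAt 𝓘(ℝ, E) 𝓘(ℝ, ℝ) ∞ b p := by
    intro p hp
    obtain ⟨w, -, w2⟩ := key p hp
    obtain ⟨k, k1, k2, k3⟩ := exists_inv (contMDiffAt_expo hg hH (zero_mem_Dom hg hH hp))
      (fun v v' h => by rwa [md_expo_zero hg hH hp, md_expo_zero hg hH hp] at h)
    have k0 := k2.self_of_nhds
    rw [expo_zero hg hH hp] at k1 k3 k0
    have h1 : ContDiff ℝ ∞ fun y : E => b p + g p w y := contDiff_const.add (g p w).contDiff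
    refine (h1.contMDiff.contMDiffAt.comp p k1).congr_of_eventuallyEq ?_
    filter_upwards [k3, k1.continuousAt.eventually ((isOpen_Dom hg hH).mem_nhds
      (k0 ▸ zero_mem_Dom hg hH hp))] with z e1 e2
    exact e1 ▸ (by rw [e1]; exact (e1 ▸ w2 _ e2 :))
  have hφ : ∀ p ∈ U, ContDiffAt ℝ ∞ (rd E b p) (pt E p) := fun p hp =>
    (ContMDiffAt.comp _ (by rw [symm_pt]; exact hsm p hp) (sm_symm (pt_mem p))).contDiffAt
  have core : ∀ p ∈ U, ∃ w, g p w w = 1 ∧ ∀ v, fderiv ℝ (rd E b p) (pt E p) v = g p w v ∧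
      hess g b p v v = 0 := by
    intro p hp
    obtain ⟨w, w1, w2⟩ := key p hp
    refine ⟨w, w1, fun v => ?_⟩
    have hz := zero_mem_Life hg hp v
    have hG := isGeo_ray (p := p) (v := v) hg hH
    have e0 : ray g U p v 0 = p := ray_zero hg hH
    have e1 : cc (E := E) (ray g U p v) p 0 = pt E p := by rw [cc, e0, pt]
    have e2 : deriv (cc (E := E) (ray g U p v) p) 0 = v := by
      have := dv_ray_zero (v := v) hg hH hp
      rwa [dv, e0] at this
    have hs : ∀ᶠ t in 𝓝 (0 : ℝ), t ∈ Life g U p v ∧ ray g U p v t ∈ (chartAt E p).source :=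
      (isOpen_Life.eventually_mem hz).and ((hG.contAt isOpen_Life hz).eventually
        (by rw [e0]; exact chart_source_mem_nhds E p))
    obtain ⟨-, e4, e5⟩ := hG.eqn p 0 hz hs.self_of_nhds.2
    have := chart_core (φ := rd E b p) (c := cc (ray g U p v) p) (l := g p w v)
      (e1 ▸ hφ p hp) (hs.mono fun t ht => (hG.eqn p t ht.1 ht.2).1) e4.hasDerivAt
      (hs.mono fun t ht => by
        rw [e1, rd_pt, rd, cc, Function.comp, (chartAt E p).left_inv ht.2, ← expo_smul hg hH ht.1,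
          w2 _ ((smul_mem_Dom hg hH).2 ht.1), map_smul, smul_eq_mul])
    rw [e5, e1, e2, map_neg] at this
    exact ⟨this.1, by rw [hess, hessG_apply, sub_eq_add_neg]; exact this.2⟩
  refine ⟨b, fun p hp => (hsm p hp).contMDiffWithinAt, fun p hp => ?_, fun p hp => ?_,
    fun t => ?_, hF⟩
  · obtain ⟨w, -, h⟩ := core p hp
    ext u v
    have h1 : hess g b p v u = hess g b p u v := by
      rw [hess, hessG_apply, hessG_apply, (hg.isMetricOn p).chris_symm (pt_mem_dom hp),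
        ((hφ p hp).isSymmSndFDerivAt (by simpa using ENat.LEInfty.out)).eq v u]
    have h2 := (h (u + v)).2
    simp only [map_add, add_apply, (h u).2, (h v).2, h1] at h2
    simp only [zero_apply]
    linarith
  · obtain ⟨w, w1, h⟩ := core p hp
    have e : fderiv ℝ (rd E b p) (pt E p) = g p w := by ext v; exact (h v).1
    rw [gam, P210.R2.H53.gamG, P210.R2.H53.gradG, e, co_pt,
      ((isInv (hg.pos p hp)).inverse_apply_eq (x := w)).2 rfl, w1]
  · simp only [hb, dd, hγ, ENNReal.toReal_ofReal (abs_nonneg _), sq_abs]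
    ring

theorem split (_ : SUPH E) (hR : HR E) (hT : TOP0 E) : SPLIT E := split' hR hT

end Vale.Agent.P216SP
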